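import Vale.Agent.P040.Main

/-!
# P040: a class of drawings satisfying the bound of Zarankiewicz (helper40)
-/

namespace Vale.Agent.P040

open Finset

variable {n m : ℕ}

theorem meet_symm1 {p q r s : ℝ × ℝ} : Meet p q r s ↔ Meet q p r s := by
  unfold Meet; rw [openSegment_symm]

theorem meet_symm2 {p q r s : ℝ × ℝ} : Meet p q r s ↔ Meet p q s r := by
  unfold Meet; rw [openSegment_symm ℝ r s]

theorem orient_swap (p q r : ℝ × ℝ) : orient q p r = -orient p q r := by
  unfold orient; ring

/-- number of split pairs -/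
theorem split_count (S : Finset (Fin n)) (hS : S.card = n / 2) :
    pairSum (fun a a' => if (if a ∈ S then (1 : ℝ) else -1) * (if a' ∈ S then (1 : ℝ) else -1) < 0
      then (1 : ℤ) else 0) = hh n := by
  rw [sep_count (fun a => if a ∈ S then (1 : ℝ) else -1) (fun b => by split_ifs <;> norm_num)]
  have h1 : (univ.filter fun b : Fin n => 0 < (if b ∈ S then (1 : ℝ) else -1)) = S := by
    ext b
    by_cases hb : b ∈ S <;> simp [hb]
  rw [h1, hS]
  have h2 : (n : ℤ) - ((n / 2 : ℕ) : ℤ) = (((n + 1) / 2 : ℕ) : ℤ) := by omega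
  rw [h2, hh]
  push_cast
  ring

theorem side_zero_or (A : Fin n → ℝ × ℝ) (B : Fin m → ℝ × ℝ) (a a' : Fin n)
    (h : (∀ b, 0 < orient (A a) (A a') (B b)) ∨ (∀ b, orient (A a) (A a') (B b) < 0)) :
    (side A B a a' : ℤ) * (m - side A B a a') = 0 := by
  rcases h with h | h
  · have : side A B a a' = m := by
      unfold side
      rw [Finset.filter_true_of_mem fun b _ => h b]
      simp
    rw [this]; ring
  · have : side A B a a' = 0 := by
      unfold side
      rw [Finset.filter_false_of_mem fun b _ => not_lt.2 (h b).le]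
      simp
    rw [this]; simp

/-- Zarankiewicz's bound when the excess is nonnegative -/
theorem bound_of_excess (A : Fin n → ℝ × ℝ) (B : Fin m → ℝ × ℝ) (h : GenPos A B)
    (he : (hh m : ℤ) * hh n ≤ monoCrossings A B +
      pairSum (fun a a' => (hh m : ℤ) - side A B a a' * (m - side A B a a'))) :
    dd m * dd n ≤ crossings A B := by
  have h1 := excess A B h
  have h2 : 0 ≤ pairSum (fun b b' : Fin m =>
      (hh n : ℤ) - side B A b b' * (n - side B A b b')) := by
    have h3 : pairSum (fun _ _ : Fin m => (0 : ℤ)) ≤ pairSum (fun b b' : Fin m =>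
        (hh n : ℤ) - side B A b b' * (n - side B A b b')) :=
      pairSum_mono fun b b' _ => sub_nonneg.2 (sep_le n _)
    have h4 : pairSum (fun _ _ : Fin m => (0 : ℤ)) = 0 := by
      rw [pairSum_const]; ring
    rw [h4] at h3
    exact h3
  have h5 : ((dd m * dd n : ℕ) : ℤ) ≤ crossings A B := by
    push_cast
    linarith
  exact_mod_cast h5

theorem class_bound (A : Fin n → ℝ × ℝ) (B : Fin m → ℝ × ℝ) (h : GenPos A B)
    (S : Finset (Fin n)) (T : Finset (Fin m)) (hS : S.card = n / 2) (hT : T.card = m / 2)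
    (hST : ∀ a ∈ S, ∀ a' ∉ S,
      ((∀ b, 0 < orient (A a) (A a') (B b)) ∨ (∀ b, orient (A a) (A a') (B b) < 0)) ∨
      (∀ b ∈ T, ∀ b' ∉ T, Meet (A a) (A a') (B b) (B b'))) :
    dd m * dd n ≤ crossings A B := by
  classical
  refine bound_of_excess A B h ?_
  rw [mono_eq, ← pairSum_add]
  -- symmetric form of the hypothesis
  have hsym : ∀ a a', (if a ∈ S then (1 : ℝ) else -1) * (if a' ∈ S then (1 : ℝ) else -1) < 0 →
      ((∀ b, 0 < orient (A a) (A a') (B b)) ∨ (∀ b, orient (A a) (A a') (B b) < 0)) ∨
      (∀ b ∈ T, ∀ b' ∉ T, Meet (A a) (A a') (B b) (B b')) := by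
    intro a a' hlt
    by_cases ha : a ∈ S
    · by_cases ha' : a' ∈ S
      · simp only [ha, ha', if_true] at hlt; norm_num at hlt
      · exact hST a ha a' ha'
    · by_cases ha' : a' ∈ S
      · rcases hST a' ha' a ha with (h1 | h1) | h1
        · refine Or.inl (Or.inr fun b => ?_)
          rw [orient_swap]; linarith [h1 b]
        · refine Or.inl (Or.inl fun b => ?_)
          rw [orient_swap]; linarith [h1 b]
        · exact Or.inr fun b hb b' hb' => meet_symm1.1 (h1 b hb b' hb')
      · simp only [ha, ha', if_false] at hlt; norm_num at hlt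
  have hmeet : ∀ a a', (∀ b ∈ T, ∀ b' ∉ T, Meet (A a) (A a') (B b) (B b')) →
      (hh m : ℤ) ≤ pairSum (fun b b' : Fin m =>
        if Meet (A a) (A a') (B b) (B b') then (1 : ℤ) else 0) := by
    intro a a' hM
    rw [← split_count T hT]
    refine pairSum_mono fun b b' _ => ?_
    by_cases hlt : (if b ∈ T then (1 : ℝ) else -1) * (if b' ∈ T then (1 : ℝ) else -1) < 0
    · rw [if_pos hlt]
      have : Meet (A a) (A a') (B b) (B b') := by
        by_cases hb : b ∈ T
        · by_cases hb' : b' ∈ T
          · simp only [hb, hb', if_true] at hlt; norm_num at hlt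
          · exact hM b hb b' hb'
        · by_cases hb' : b' ∈ T
          · exact meet_symm2.1 (hM b' hb' b hb)
          · simp only [hb, hb', if_false] at hlt; norm_num at hlt
      rw [if_pos this]
    · rw [if_neg hlt]
      split_ifs <;> norm_num
  have hnn : ∀ a a', (0 : ℤ) ≤ pairSum (fun b b' : Fin m =>
        if Meet (A a) (A a') (B b) (B b') then (1 : ℤ) else 0) := by
    intro a a'
    have h3 : pairSum (fun _ _ : Fin m => (0 : ℤ)) ≤ pairSum (fun b b' : Fin m =>
        if Meet (A a) (A a') (B b) (B b') then (1 : ℤ) else 0) :=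
      pairSum_mono fun b b' _ => by split_ifs <;> norm_num
    have h4 : pairSum (fun _ _ : Fin m => (0 : ℤ)) = 0 := by
      rw [pairSum_const]; ring
    rw [h4] at h3
    exact h3
  have key : pairSum (fun a a' : Fin n => (hh m : ℤ) *
      (if (if a ∈ S then (1 : ℝ) else -1) * (if a' ∈ S then (1 : ℝ) else -1) < 0
        then (1 : ℤ) else 0)) ≤
      pairSum (fun a a' : Fin n => pairSum (fun b b' : Fin m =>
        if Meet (A a) (A a') (B b) (B b') then (1 : ℤ) else 0) +
        ((hh m : ℤ) - side A B a a' * (m - side A B a a'))) := by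
    refine pairSum_mono fun a a' _ => ?_
    have hf : (side A B a a' : ℤ) * (m - side A B a a') ≤ hh m := sep_le m _
    have hn := hnn a a'
    by_cases hlt : (if a ∈ S then (1 : ℝ) else -1) * (if a' ∈ S then (1 : ℝ) else -1) < 0
    · rw [if_pos hlt, mul_one]
      rcases hsym a a' hlt with h1 | h1
      · rw [side_zero_or A B a a' h1]
        linarith
      · have := hmeet a a' h1
        linarith
    · rw [if_neg hlt, mul_zero]
      linarith
  have hmul : pairSum (fun a a' : Fin n => (hh m : ℤ) *
      (if (if a ∈ S then (1 : ℝ) else -1) * (if a' ∈ S then (1 : ℝ) else -1) < 0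
        then (1 : ℤ) else 0)) = hh m * hh n := by
    rw [← split_count S hS]
    unfold pairSum
    rw [Finset.mul_sum]
    refine Finset.sum_congr rfl fun a _ => ?_
    rw [Finset.mul_sum]
    refine Finset.sum_congr rfl fun a' _ => ?_
    split_ifs <;> simp
  rw [hmul] at key
  exact key

end Vale.Agent.P040
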