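import Mathlib

/-!
# P040: counting pairs (helper40)
-/

namespace Vale.Agent.P040

open Finset

/-- sum over the pairs `i < j` -/
def pairSum {n : ℕ} (f : Fin n → Fin n → ℤ) : ℤ := ∑ i, ∑ j, if i < j then f i j else 0

theorem pairSum_congr {n : ℕ} {f g : Fin n → Fin n → ℤ} (h : ∀ i j, i < j → f i j = g i j) :
    pairSum f = pairSum g := by
  refine Finset.sum_congr rfl fun i _ => Finset.sum_congr rfl fun j _ => ?_
  split_ifs with hij
  · exact h i j hij
  · rfl

theorem pairSum_add {n : ℕ} (f g : Fin n → Fin n → ℤ) :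
    pairSum (fun i j => f i j + g i j) = pairSum f + pairSum g := by
  unfold pairSum
  rw [← Finset.sum_add_distrib]
  refine Finset.sum_congr rfl fun i _ => ?_
  rw [← Finset.sum_add_distrib]
  refine Finset.sum_congr rfl fun j _ => ?_
  split_ifs <;> simp

theorem pairSum_sub {n : ℕ} (f g : Fin n → Fin n → ℤ) :
    pairSum (fun i j => f i j - g i j) = pairSum f - pairSum g := by
  unfold pairSum
  rw [← Finset.sum_sub_distrib]
  refine Finset.sum_congr rfl fun i _ => ?_
  rw [← Finset.sum_sub_distrib]
  refine Finset.sum_congr rfl fun j _ => ?_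
  split_ifs <;> simp

theorem pairSum_mono {n : ℕ} {f g : Fin n → Fin n → ℤ} (h : ∀ i j, i < j → f i j ≤ g i j) :
    pairSum f ≤ pairSum g := by
  refine Finset.sum_le_sum fun i _ => Finset.sum_le_sum fun j _ => ?_
  split_ifs with hij
  · exact h i j hij
  · exact le_rfl

/-- splitting the ordered pairs -/
theorem sum_ne {n : ℕ} (f : Fin n → Fin n → ℤ) :
    (∑ i, ∑ j, if i ≠ j then f i j else 0) = pairSum (fun i j => f i j + f j i) := by
  have h1 : (∑ i, ∑ j, if i ≠ j then f i j else 0) =
      (∑ i, ∑ j, if i < j then f i j else 0) + ∑ i, ∑ j, if j < i then f i j else 0 := by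
    rw [← Finset.sum_add_distrib]
    refine Finset.sum_congr rfl fun i _ => ?_
    rw [← Finset.sum_add_distrib]
    refine Finset.sum_congr rfl fun j _ => ?_
    rcases lt_trichotomy i j with h | h | h
    · simp [h, h.ne, not_lt_of_gt h]
    · simp [h]
    · simp [h, h.ne', not_lt_of_gt h]
  rw [h1, pairSum_add]
  congr 1
  rw [Finset.sum_comm]
  rfl

theorem two_pairSum {n : ℕ} (f : Fin n → Fin n → ℤ) (hs : ∀ i j, f i j = f j i)
    (h0 : ∀ i, f i i = 0) : 2 * pairSum f = ∑ i, ∑ j, f i j := by
  have h1 : (∑ i, ∑ j, f i j) = ∑ i, ∑ j, if i ≠ j then f i j else 0 := by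
    refine Finset.sum_congr rfl fun i _ => Finset.sum_congr rfl fun j _ => ?_
    split_ifs with h
    · rfl
    · rw [not_not.1 h, h0]
  rw [h1, sum_ne, pairSum_add, two_mul]
  congr 1
  exact pairSum_congr fun i j _ => hs i j

/-- `⌊n/2⌋⌊(n-1)/2⌋` -/
def dd (n : ℕ) : ℕ := (n / 2) * ((n - 1) / 2)

/-- `⌊n²/4⌋` -/
def hh (n : ℕ) : ℕ := (n / 2) * ((n + 1) / 2)

theorem dd_add_hh (n : ℕ) : 2 * ((dd n : ℤ) + hh n) = n * n - n := by
  rcases Nat.even_or_odd' n with ⟨r, h | h⟩
  · rcases Nat.eq_zero_or_pos r with h0 | h0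
    · subst h0; subst h; simp [dd, hh]
    · have e1 : n / 2 = r := by omega
      have e2 : (n - 1) / 2 = r - 1 := by omega
      have e3 : (n + 1) / 2 = r := by omega
      rw [dd, hh, e1, e2, e3, h]
      push_cast [Nat.cast_sub h0]
      ring
  · have e1 : n / 2 = r := by omega
    have e2 : (n - 1) / 2 = r := by omega
    have e3 : (n + 1) / 2 = r + 1 := by omega
    rw [dd, hh, e1, e2, e3, h]
    push_cast
    ring

theorem pairSum_const (n : ℕ) (c : ℤ) : pairSum (fun _ _ : Fin n => c) = c * (dd n + hh n) := by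
  have h := two_pairSum (n := n) (fun i j => if i ≠ j then c else 0)
    (fun i j => by by_cases h : i = j <;> simp [h, Ne.symm]) (fun i => by simp)
  have h2 : pairSum (fun i j : Fin n => if i ≠ j then c else 0) = pairSum (fun _ _ : Fin n => c) :=
    pairSum_congr fun i j hij => by simp [hij.ne]
  have h3 : (∑ i : Fin n, ∑ j : Fin n, if i ≠ j then c else 0) = c * (n * n - n) := by
    have : ∀ i : Fin n, (∑ j : Fin n, if i ≠ j then c else 0) = (n : ℤ) * c - c := by
      intro i
      have e : (∑ j : Fin n, if i ≠ j then c else 0) =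
          (∑ j : Fin n, c) - ∑ j : Fin n, if i = j then c else 0 := by
        rw [← Finset.sum_sub_distrib]
        refine Finset.sum_congr rfl fun j _ => ?_
        by_cases h : i = j <;> simp [h]
      rw [e]
      simp
    rw [Finset.sum_congr rfl fun i _ => this i]
    simp
    ring
  rw [h2, h3] at h
  rw [← dd_add_hh n] at h
  have h4 : 2 * pairSum (fun _ _ : Fin n => c) = 2 * (c * (dd n + hh n)) := by
    rw [h]; ring
  linarith

/-- separated pairs -/
theorem sep_count {m : ℕ} (s : Fin m → ℝ) (hs : ∀ b, s b ≠ 0) :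
    pairSum (fun b b' => if s b * s b' < 0 then 1 else 0) =
      ((univ.filter fun b => 0 < s b).card : ℤ) *
        (m - ((univ.filter fun b => 0 < s b).card : ℤ)) := by
  have h := two_pairSum (n := m) (fun b b' => if s b * s b' < 0 then 1 else 0)
    (fun i j => by rw [mul_comm]) (fun i => by
      have : ¬ s i * s i < 0 := not_lt.2 (mul_self_nonneg _)
      simp [this])
  have hneg : ((univ.filter fun b => s b < 0).card : ℤ) =
      m - ((univ.filter fun b => 0 < s b).card : ℤ) := by
    have h1 : (univ.filter fun b => 0 < s b).card + (univ.filter fun b => ¬ 0 < s b).card =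
        (univ : Finset (Fin m)).card := Finset.card_filter_add_card_filter_not _
    have h2 : (univ.filter fun b => ¬ 0 < s b) = univ.filter fun b => s b < 0 := by
      refine Finset.filter_congr fun b _ => ?_
      constructor
      · intro h; exact lt_of_le_of_ne (not_lt.1 h) (hs b)
      · intro h; exact not_lt.2 h.le
    rw [h2, Finset.card_univ, Fintype.card_fin] at h1
    have := congrArg (Nat.cast (R := ℤ)) h1
    push_cast at this
    linarith
  have h3 : (∑ i, ∑ j, if s i * s j < 0 then (1 : ℤ) else 0) =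
      2 * (((univ.filter fun b => 0 < s b).card : ℤ) * ((univ.filter fun b => s b < 0).card : ℤ)) := by
    have e : ∀ i j, (if s i * s j < 0 then (1 : ℤ) else 0) =
        (if 0 < s i then 1 else 0) * (if s j < 0 then 1 else 0) +
        (if s i < 0 then 1 else 0) * (if 0 < s j then 1 else 0) := by
      intro i j
      rcases lt_or_gt_of_ne (hs i) with g1 | g1 <;> rcases lt_or_gt_of_ne (hs j) with g2 | g2
      · have : ¬ s i * s j < 0 := not_lt.2 (mul_pos_of_neg_of_neg g1 g2).le
        simp [this, g1, g2, not_lt_of_gt g1, not_lt_of_gt g2]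
      · have : s i * s j < 0 := mul_neg_of_neg_of_pos g1 g2
        simp [this, g1, g2, not_lt_of_gt g1, not_lt_of_gt g2]
      · have : s i * s j < 0 := mul_neg_of_pos_of_neg g1 g2
        simp [this, g1, g2, not_lt_of_gt g1, not_lt_of_gt g2]
      · have : ¬ s i * s j < 0 := not_lt.2 (mul_pos g1 g2).le
        simp [this, g1, g2, not_lt_of_gt g1, not_lt_of_gt g2]
    have c1 : ((univ.filter fun b => 0 < s b).card : ℤ) = ∑ b, if 0 < s b then (1 : ℤ) else 0 := by
      rw [Finset.card_filter]; push_cast; rfl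
    have c2 : ((univ.filter fun b => s b < 0).card : ℤ) = ∑ b, if s b < 0 then (1 : ℤ) else 0 := by
      rw [Finset.card_filter]; push_cast; rfl
    rw [c1, c2, two_mul]
    conv_rhs =>
      rw [Finset.sum_mul_sum]
    rw [Finset.sum_congr rfl fun i _ => Finset.sum_congr rfl fun j _ => e i j]
    simp only [Finset.sum_add_distrib]
    congr 1
    rw [← Finset.sum_mul_sum, ← Finset.sum_mul_sum, mul_comm]
  rw [h3, hneg] at h
  linarith

theorem sep_le (m : ℕ) (l : ℤ) : l * (m - l) ≤ hh m := by
  rcases Nat.even_or_odd' m with ⟨r, h | h⟩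
  · have e1 : m / 2 = r := by omega
    have e3 : (m + 1) / 2 = r := by omega
    rw [hh, e1, e3, h]
    push_cast
    nlinarith [sq_nonneg (l - r)]
  · have e1 : m / 2 = r := by omega
    have e3 : (m + 1) / 2 = r + 1 := by omega
    rw [hh, e1, e3, h]
    push_cast
    rcases le_or_gt l r with g | g
    · nlinarith [mul_nonneg (sub_nonneg.2 g) (by linarith : (0 : ℤ) ≤ (r : ℤ) + 1 - l)]
    · have g' : (r : ℤ) + 1 ≤ l := g
      nlinarith [mul_nonneg (sub_nonneg.2 g') (by linarith : (0 : ℤ) ≤ l - r)]

end Vale.Agent.P040
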