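import Vale.Agent.P040.Cls

/-!
# P040: the numerical criterion and the strip class (helper40)
-/

namespace Vale.Agent.P040

open Finset

variable {n m : ℕ}

open scoped Classical in
/-- the number of lines through two points of `A` which have all points of `B` on one side -/
noncomputable def missing (A : Fin n → ℝ × ℝ) (B : Fin m → ℝ × ℝ) : ℕ :=
  (univ.filter fun q : Fin n × Fin n => q.1 < q.2 ∧
    ((∀ b, 0 < orient (A q.1) (A q.2) (B b)) ∨ (∀ b, orient (A q.1) (A q.2) (B b) < 0))).card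

theorem missing_le (A : Fin n → ℝ × ℝ) (B : Fin m → ℝ × ℝ) :
    (missing A B : ℤ) * hh m ≤
      pairSum (fun a a' => (hh m : ℤ) - side A B a a' * (m - side A B a a')) := by
  classical
  have h1 : (missing A B : ℤ) = pairSum (fun a a' =>
      if ((∀ b, 0 < orient (A a) (A a') (B b)) ∨ (∀ b, orient (A a) (A a') (B b) < 0))
        then (1 : ℤ) else 0) := by
    unfold missing
    rw [Finset.card_filter]
    push_cast
    rw [Fintype.sum_prod_type]
    unfold pairSum
    refine Finset.sum_congr rfl fun a _ => Finset.sum_congr rfl fun a' _ => ?_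
    by_cases h : a < a'
    · simp [h]
    · simp [h]
  have h2 : (missing A B : ℤ) * hh m = pairSum (fun a a' =>
      if ((∀ b, 0 < orient (A a) (A a') (B b)) ∨ (∀ b, orient (A a) (A a') (B b) < 0))
        then (hh m : ℤ) else 0) := by
    rw [h1]
    unfold pairSum
    rw [Finset.sum_mul]
    refine Finset.sum_congr rfl fun a _ => ?_
    rw [Finset.sum_mul]
    refine Finset.sum_congr rfl fun a' _ => ?_
    split_ifs <;> simp
  rw [h2]
  refine pairSum_mono fun a a' _ => ?_
  split_ifs with h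
  · rw [side_zero_or A B a a' h]; simp
  · exact sub_nonneg.2 (sep_le m _)

theorem criterion (A : Fin n → ℝ × ℝ) (B : Fin m → ℝ × ℝ) (h : GenPos A B)
    (hc : hh m * hh n ≤ monoCrossings A B + missing A B * hh m + missing B A * hh n) :
    dd m * dd n ≤ crossings A B := by
  have h1 := excess A B h
  have h2 := missing_le A B
  have h3 := missing_le B A
  have h4 : ((hh m * hh n : ℕ) : ℤ) ≤
      ((monoCrossings A B + missing A B * hh m + missing B A * hh n : ℕ) : ℤ) := by
    exact_mod_cast hc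
  push_cast at h4
  have h5 : ((dd m * dd n : ℕ) : ℤ) ≤ crossings A B := by
    push_cast
    linarith
  exact_mod_cast h5

theorem strip_sign (f g : (ℝ × ℝ) →ₗ[ℝ] ℝ) {p q r : ℝ × ℝ} (h1 : f r < f p) (h2 : f q < f r)
    (h3 : g p < g r) (h4 : g q < g r) :
    orient p q r * (f (1, 0) * g (0, 1) - f (0, 1) * g (1, 0)) < 0 := by
  have hf : ∀ x : ℝ × ℝ, f x = x.1 * f (1, 0) + x.2 * f (0, 1) := by
    intro x
    have : x = x.1 • ((1, 0) : ℝ × ℝ) + x.2 • ((0, 1) : ℝ × ℝ) := by ext <;> simp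
    calc f x = f (x.1 • ((1, 0) : ℝ × ℝ) + x.2 • ((0, 1) : ℝ × ℝ)) := congrArg f this
      _ = _ := by rw [map_add, map_smul, map_smul, smul_eq_mul, smul_eq_mul]
  have hg : ∀ x : ℝ × ℝ, g x = x.1 * g (1, 0) + x.2 * g (0, 1) := by
    intro x
    have : x = x.1 • ((1, 0) : ℝ × ℝ) + x.2 • ((0, 1) : ℝ × ℝ) := by ext <;> simp
    calc g x = g (x.1 • ((1, 0) : ℝ × ℝ) + x.2 • ((0, 1) : ℝ × ℝ)) := congrArg g this
      _ = _ := by rw [map_add, map_smul, map_smul, smul_eq_mul, smul_eq_mul]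
  have e : orient p q r * (f (1, 0) * g (0, 1) - f (0, 1) * g (1, 0)) =
      (f q - f p) * (g r - g p) - (f r - f p) * (g q - g p) := by
    rw [hf p, hf q, hf r, hg p, hg q, hg r]
    unfold orient
    ring
  rw [e]
  rcases le_or_gt 0 (g q - g p) with h5 | h5
  · nlinarith [mul_pos (sub_pos.2 h2) (sub_pos.2 h3), mul_nonneg (sub_pos.2 h1).le h5,
      mul_pos (sub_pos.2 h1) (sub_pos.2 h4)]
  · nlinarith [mul_pos (sub_pos.2 h2) (sub_pos.2 h3), mul_pos (sub_pos.2 h1) (sub_pos.2 h3),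
      mul_pos (sub_pos.2 h1) (neg_pos.2 h5)]

theorem strip_bound (A : Fin n → ℝ × ℝ) (B : Fin m → ℝ × ℝ) (h : GenPos A B)
    (f g : (ℝ × ℝ) →ₗ[ℝ] ℝ) (S : Finset (Fin n)) (hS : S.card = n / 2)
    (hfS : ∀ a ∈ S, ∀ b, f (B b) < f (A a)) (hfS' : ∀ a ∉ S, ∀ b, f (A a) < f (B b))
    (hg : ∀ a b, g (A a) < g (B b)) :
    dd m * dd n ≤ crossings A B := by
  classical
  obtain ⟨T, -, hT⟩ := Finset.exists_subset_card_eq (s := (univ : Finset (Fin m))) (n := m / 2)
    (by rw [Finset.card_univ, Fintype.card_fin]; exact Nat.div_le_self m 2)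
  refine class_bound A B h S T hS hT fun a ha a' ha' => Or.inl ?_
  have key : ∀ b, orient (A a) (A a') (B b) *
      (f (1, 0) * g (0, 1) - f (0, 1) * g (1, 0)) < 0 := fun b =>
    strip_sign f g (hfS a ha b) (hfS' a' ha' b) (hg a b) (hg a' b)
  rcases lt_or_ge (f (1, 0) * g (0, 1) - f (0, 1) * g (1, 0)) 0 with hD | hD
  · refine Or.inl fun b => ?_
    by_contra hcon
    have := mul_nonneg_of_nonpos_of_nonpos (not_lt.1 hcon) hD.le
    linarith [key b]
  · refine Or.inr fun b => ?_
    by_contra hcon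
    have := mul_nonneg (not_lt.1 hcon) hD
    linarith [key b]

end Vale.Agent.P040
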