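import Mathlib

/-!
# P040: rectilinear drawings of complete bipartite graphs, geometry of four points (helper40)
-/

namespace Vale.Agent.P040

open Finset

/-- orientation of a triple of points -/
def orient (p q r : ℝ × ℝ) : ℝ := (q.1 - p.1) * (r.2 - p.2) - (q.2 - p.2) * (r.1 - p.1)

/-- the open segments `pq` and `rs` meet -/
def Meet (p q r s : ℝ × ℝ) : Prop := (openSegment ℝ p q ∩ openSegment ℝ r s).Nonempty

theorem orient_sum (a a' b b' : ℝ × ℝ) :
    orient a a' b + orient a b b' = orient a a' b' + orient a' b b' := by
  unfold orient; ring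

theorem meet_iff {p q r s : ℝ × ℝ} (h1 : orient p q r ≠ 0)
    (h3 : orient r s p ≠ 0) :
    Meet p q r s ↔ orient p q r * orient p q s < 0 ∧ orient r s p * orient r s q < 0 := by
  constructor
  · rintro ⟨x, ⟨a, b, ha, hb, hab, hx⟩, ⟨c, d, hc, hd, hcd, hx'⟩⟩
    have e1 : a * p.1 + b * q.1 = c * r.1 + d * s.1 := by
      have := congrArg Prod.fst (hx.trans hx'.symm); simpa using this
    have e2 : a * p.2 + b * q.2 = c * r.2 + d * s.2 := by
      have := congrArg Prod.snd (hx.trans hx'.symm); simpa using this
    have hb' : b = 1 - a := by linarith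
    have hd' : d = 1 - c := by linarith
    have k1 : c * orient p q r + d * orient p q s = 0 := by
      have : c * orient p q r + d * orient p q s =
          (q.1 - p.1) * ((c * r.2 + d * s.2) - (c + d) * p.2) -
          (q.2 - p.2) * ((c * r.1 + d * s.1) - (c + d) * p.1) := by
        unfold orient; ring
      rw [this, ← e1, ← e2, hcd, hb']; ring
    have k2 : a * orient r s p + b * orient r s q = 0 := by
      have : a * orient r s p + b * orient r s q =
          (s.1 - r.1) * ((a * p.2 + b * q.2) - (a + b) * r.2) -
          (s.2 - r.2) * ((a * p.1 + b * q.1) - (a + b) * r.1) := by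
        unfold orient; ring
      rw [this, e1, e2, hab, hd']; ring
    constructor
    · have : d * (orient p q r * orient p q s) = -(c * orient p q r ^ 2) := by
        linear_combination orient p q r * k1
      have h5 : 0 < c * orient p q r ^ 2 := by positivity
      nlinarith
    · have : b * (orient r s p * orient r s q) = -(a * orient r s p ^ 2) := by
        linear_combination orient r s p * k2
      have h5 : 0 < a * orient r s p ^ 2 := by positivity
      nlinarith
  · rintro ⟨g1, g2⟩
    have hΔ : orient p q s - orient p q r = -(orient r s q - orient r s p) := by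
      unfold orient; ring
    have n1 : orient p q s - orient p q r ≠ 0 := by
      intro h
      have : orient p q s = orient p q r := by linarith
      rw [this] at g1
      nlinarith [sq_nonneg (orient p q r)]
    have n2 : orient r s q - orient r s p ≠ 0 := by
      intro h; rw [h] at hΔ; simp at hΔ; exact n1 hΔ
    have pos1 : ∀ u v : ℝ, u * v < 0 → 0 < v / (v - u) ∧ 0 < -u / (v - u) := by
      intro u v huv
      rcases lt_or_ge v 0 with hv | hv
      · have hu : 0 < u := by
          by_contra hcon
          have := mul_nonneg_of_nonpos_of_nonpos (not_lt.1 hcon) hv.le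
          linarith
        exact ⟨div_pos_of_neg_of_neg hv (by linarith), div_pos_of_neg_of_neg (by linarith) (by linarith)⟩
      · have hv' : 0 < v := lt_of_le_of_ne hv (by rintro rfl; simp at huv)
        have hu : u < 0 := by
          by_contra hcon
          have := mul_nonneg (not_lt.1 hcon) hv
          linarith
        exact ⟨div_pos hv' (by linarith), div_pos (by linarith) (by linarith)⟩
    obtain ⟨c1, c2⟩ := pos1 _ _ g1
    obtain ⟨a1, a2⟩ := pos1 _ _ g2
    refine ⟨(orient p q s / (orient p q s - orient p q r)) • r +
      (-orient p q r / (orient p q s - orient p q r)) • s, ?_, ?_⟩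
    · refine ⟨orient r s q / (orient r s q - orient r s p),
        -orient r s p / (orient r s q - orient r s p), a1, a2, ?_, ?_⟩
      · field_simp; ring
      · have m1 : orient r s q - orient r s p = -(orient p q s - orient p q r) := by linarith
        ext
        · simp only [Prod.fst_add, Prod.smul_fst, smul_eq_mul]
          rw [m1]
          field_simp
          unfold orient; ring
        · simp only [Prod.snd_add, Prod.smul_snd, smul_eq_mul]
          rw [m1]
          field_simp
          unfold orient; ring
    · exact ⟨_, _, c1, c2, by field_simp; ring, rfl⟩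

/-- four points: the number of crossings of the drawing of `K_{2,2}` -/
theorem four {a a' b b' : ℝ × ℝ} (h1 : orient a a' b ≠ 0) (h2 : orient a a' b' ≠ 0)
    (h3 : orient b b' a ≠ 0) (h4 : orient b b' a' ≠ 0) :
    (open scoped Classical in
    ((if Meet a b a' b' then (1 : ℤ) else 0) + (if Meet a b' a' b then (1 : ℤ) else 0) =
      1 - (if orient a a' b * orient a a' b' < 0 then (1 : ℤ) else 0)
        - (if orient b b' a * orient b b' a' < 0 then (1 : ℤ) else 0)
        + (if Meet a a' b b' then (1 : ℤ) else 0))) := by
  classical
  have s := orient_sum a a' b b'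
  have c3 : orient a b b' = orient b b' a := by unfold orient; ring
  have c4 : orient a' b b' = orient b b' a' := by unfold orient; ring
  rw [c3, c4] at s
  have e1 : orient a b a' = -orient a a' b := by unfold orient; ring
  have e2 : orient a b b' = orient b b' a := c3
  have e3 : orient a' b' a = orient a a' b' := by unfold orient; ring
  have e4 : orient a' b' b = -orient b b' a' := by unfold orient; ring
  have f1 : orient a b' a' = -orient a a' b' := by unfold orient; ring
  have f2 : orient a b' b = -orient b b' a := by unfold orient; ring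
  have f3 : orient a' b a = orient a a' b := by unfold orient; ring
  have f4 : orient a' b b' = orient b b' a' := c4
  have M1 : Meet a b a' b' ↔ _ := meet_iff (p := a) (q := b) (r := a') (s := b')
    (by rw [e1]; exact neg_ne_zero.2 h1) (by rw [e3]; exact h2)
  have M2 : Meet a b' a' b ↔ _ := meet_iff (p := a) (q := b') (r := a') (s := b)
    (by rw [f1]; exact neg_ne_zero.2 h2) (by rw [f3]; exact h1)
  have M3 : Meet a a' b b' ↔ _ := meet_iff (p := a) (q := a') (r := b) (s := b') h1 h3
  rw [e1, e2, e3, e4] at M1
  rw [f1, f2, f3, f4] at M2
  generalize orient a a' b = D1 at *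
  generalize orient a a' b' = D2 at *
  generalize orient b b' a = D3 at *
  generalize orient b b' a' = D4 at *
  have key : ∀ x y : ℝ, x ≠ 0 → y ≠ 0 → (x * y < 0 ↔ ((x < 0 ∧ 0 < y) ∨ (0 < x ∧ y < 0))) := by
    intro x y hx hy
    rw [mul_neg_iff]; tauto
  rw [key _ _ (neg_ne_zero.2 h1) h3, key _ _ h2 (neg_ne_zero.2 h4)] at M1
  rw [key _ _ (neg_ne_zero.2 h2) (neg_ne_zero.2 h3), key _ _ h1 h4] at M2
  rw [key _ _ h1 h2, key _ _ h3 h4] at M3
  have k12 := key _ _ h1 h2
  have k34 := key _ _ h3 h4
  simp only [Left.neg_neg_iff, Left.neg_pos_iff] at M1 M2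
  simp only [M1, M2, M3, k12, k34]
  rcases lt_or_gt_of_ne h1 with g1 | g1 <;> rcases lt_or_gt_of_ne h2 with g2 | g2 <;>
    rcases lt_or_gt_of_ne h3 with g3 | g3 <;> rcases lt_or_gt_of_ne h4 with g4 | g4 <;>
    first
      | (exfalso; linarith)
      | (simp [g1, g2, g3, g4, not_lt_of_gt g1, not_lt_of_gt g2,
          not_lt_of_gt g3, not_lt_of_gt g4])

end Vale.Agent.P040
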