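import Vale.Agent.P040.Geo
import Vale.Agent.P040.Count

/-!
# P040: rectilinear drawings of `K_{m,n}` (helper40)
-/

namespace Vale.Agent.P040

open Finset

variable {n m : ℕ}

/-- general position: distinct points, no three collinear -/
def GenPos (A : Fin n → ℝ × ℝ) (B : Fin m → ℝ × ℝ) : Prop :=
  Function.Injective (Sum.elim A B) ∧ ∀ i j k : Fin n ⊕ Fin m, i ≠ j → j ≠ k → i ≠ k →
    ¬ Collinear ℝ {Sum.elim A B i, Sum.elim A B j, Sum.elim A B k}

open scoped Classical in
/-- the number of crossings of the rectilinear drawing of the complete bipartite graph with classes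
`A`, `B`: the number of pairs of edges `A_a B_b`, `A_a' B_b'` (`a < a'`, `b ≠ b'`) whose interiors
meet -/
noncomputable def crossings (A : Fin n → ℝ × ℝ) (B : Fin m → ℝ × ℝ) : ℕ :=
  (univ.filter fun q : (Fin n × Fin m) × (Fin n × Fin m) => q.1.1 < q.2.1 ∧ q.1.2 ≠ q.2.2 ∧
    (openSegment ℝ (A q.1.1) (B q.1.2) ∩ openSegment ℝ (A q.2.1) (B q.2.2)).Nonempty).card

open scoped Classical in
/-- the number of pairs (segment between two points of `A`, segment between two points of `B`)
which cross -/
noncomputable def monoCrossings (A : Fin n → ℝ × ℝ) (B : Fin m → ℝ × ℝ) : ℕ :=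
  (univ.filter fun q : (Fin n × Fin n) × (Fin m × Fin m) => q.1.1 < q.1.2 ∧ q.2.1 < q.2.2 ∧
    (openSegment ℝ (A q.1.1) (A q.1.2) ∩ openSegment ℝ (B q.2.1) (B q.2.2)).Nonempty).card

/-- the number of points of `B` to the left of the line from `A_a` to `A_a'` -/
noncomputable def side (A : Fin n → ℝ × ℝ) (B : Fin m → ℝ × ℝ) (a a' : Fin n) : ℕ :=
  (univ.filter fun b => 0 < orient (A a) (A a') (B b)).card

theorem collinear_of_orient {p q r : ℝ × ℝ} (hpq : p ≠ q) (h : orient p q r = 0) :
    Collinear ℝ {p, q, r} := by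
  rw [collinear_iff_of_mem (p₀ := p) (by simp)]
  refine ⟨q - p, ?_⟩
  intro x hx
  simp only [Set.mem_insert_iff, Set.mem_singleton_iff] at hx
  rcases hx with rfl | rfl | rfl
  · exact ⟨0, by simp⟩
  · exact ⟨1, by simp⟩
  · unfold orient at h
    by_cases h1 : q.1 - p.1 = 0
    · have h2 : q.2 - p.2 ≠ 0 := by
        intro h2
        apply hpq
        ext <;> linarith
      refine ⟨(x.2 - p.2) / (q.2 - p.2), ?_⟩
      have h3 : x.1 = p.1 := by
        rw [h1, zero_mul, zero_sub, neg_eq_zero] at h
        rcases mul_eq_zero.1 h with h | h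
        · exact absurd h h2
        · linarith
      ext
      · simp [h1, h3]
      · simp only [vadd_eq_add, Prod.snd_add, Prod.smul_snd, Prod.snd_sub, smul_eq_mul]
        field_simp
        ring
    · refine ⟨(x.1 - p.1) / (q.1 - p.1), ?_⟩
      ext
      · simp only [vadd_eq_add, Prod.fst_add, Prod.smul_fst, Prod.fst_sub, smul_eq_mul]
        field_simp
        ring
      · simp only [vadd_eq_add, Prod.snd_add, Prod.smul_snd, Prod.snd_sub, smul_eq_mul]
        field_simp
        linarith

theorem orient_ne_A {A : Fin n → ℝ × ℝ} {B : Fin m → ℝ × ℝ} (h : GenPos A B) {a a' : Fin n}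
    (haa : a ≠ a') (b : Fin m) : orient (A a) (A a') (B b) ≠ 0 := by
  intro h0
  have h1 : A a ≠ A a' := fun e => haa (Sum.inl_injective (h.1 (show Sum.elim A B (Sum.inl a) =
    Sum.elim A B (Sum.inl a') from e)))
  exact h.2 (Sum.inl a) (Sum.inl a') (Sum.inr b) (by simpa using haa) (by simp) (by simp)
    (collinear_of_orient h1 h0)

theorem orient_ne_B {A : Fin n → ℝ × ℝ} {B : Fin m → ℝ × ℝ} (h : GenPos A B) {b b' : Fin m}
    (hbb : b ≠ b') (a : Fin n) : orient (B b) (B b') (A a) ≠ 0 := by
  intro h0
  have h1 : B b ≠ B b' := fun e => hbb (Sum.inr_injective (h.1 (show Sum.elim A B (Sum.inr b) =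
    Sum.elim A B (Sum.inr b') from e)))
  exact h.2 (Sum.inr b) (Sum.inr b') (Sum.inl a) (by simpa using hbb) (by simp) (by simp)
    (collinear_of_orient h1 h0)

open scoped Classical in
theorem crossings_eq (A : Fin n → ℝ × ℝ) (B : Fin m → ℝ × ℝ) : (crossings A B : ℤ) =
    pairSum (fun a a' => pairSum (fun b b' =>
      (if Meet (A a) (B b) (A a') (B b') then (1 : ℤ) else 0) +
      (if Meet (A a) (B b') (A a') (B b) then (1 : ℤ) else 0))) := by
  have h1 : (crossings A B : ℤ) = ∑ a, ∑ b, ∑ a', ∑ b', if (a < a' ∧ b ≠ b' ∧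
      Meet (A a) (B b) (A a') (B b')) then (1 : ℤ) else 0 := by
    unfold crossings
    rw [Finset.card_filter]
    push_cast
    rw [Fintype.sum_prod_type]
    simp only [Fintype.sum_prod_type]
    rfl
  rw [h1, pairSum]
  refine Finset.sum_congr rfl fun a _ => ?_
  rw [Finset.sum_comm]
  refine Finset.sum_congr rfl fun a' _ => ?_
  split_ifs with h
  · rw [← sum_ne (fun b b' => if Meet (A a) (B b) (A a') (B b') then (1 : ℤ) else 0)]
    refine Finset.sum_congr rfl fun b _ => Finset.sum_congr rfl fun b' _ => ?_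
    by_cases h2 : b = b' <;> simp [h, h2]
  · refine Finset.sum_eq_zero fun b _ => Finset.sum_eq_zero fun b' _ => ?_
    simp [h]

open scoped Classical in
theorem mono_eq (A : Fin n → ℝ × ℝ) (B : Fin m → ℝ × ℝ) : (monoCrossings A B : ℤ) =
    pairSum (fun a a' => pairSum (fun b b' =>
      (if Meet (A a) (A a') (B b) (B b') then (1 : ℤ) else 0))) := by
  have h1 : (monoCrossings A B : ℤ) = ∑ a, ∑ a', ∑ b, ∑ b', if (a < a' ∧ b < b' ∧
      Meet (A a) (A a') (B b) (B b')) then (1 : ℤ) else 0 := by
    unfold monoCrossings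
    rw [Finset.card_filter]
    push_cast
    rw [Fintype.sum_prod_type]
    simp only [Fintype.sum_prod_type]
    rfl
  rw [h1]
  unfold pairSum
  refine Finset.sum_congr rfl fun a _ => Finset.sum_congr rfl fun a' _ => ?_
  split_ifs with h
  · refine Finset.sum_congr rfl fun b _ => Finset.sum_congr rfl fun b' _ => ?_
    by_cases h2 : b < b' <;> simp [h, h2]
  · refine Finset.sum_eq_zero fun b _ => Finset.sum_eq_zero fun b' _ => ?_
    simp [h]

theorem pairSum_comm (f : Fin n → Fin n → Fin m → Fin m → ℤ) :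
    pairSum (fun a a' => pairSum (fun b b' => f a a' b b')) =
      pairSum (fun b b' => pairSum (fun a a' => f a a' b b')) := by
  unfold pairSum
  have e1 : ∀ a a' : Fin n, (if a < a' then (∑ b, ∑ b', if b < b' then f a a' b b' else 0) else 0) =
      ∑ b, ∑ b', if a < a' then (if b < b' then f a a' b b' else 0) else 0 := by
    intro a a'
    split_ifs <;> simp
  have e2 : ∀ b b' : Fin m, (if b < b' then (∑ a, ∑ a', if a < a' then f a a' b b' else 0) else 0) =
      ∑ a, ∑ a', if a < a' then (if b < b' then f a a' b b' else 0) else 0 := by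
    intro b b'
    split_ifs <;> simp
  rw [Finset.sum_congr rfl fun a _ => Finset.sum_congr rfl fun a' _ => e1 a a',
    Finset.sum_congr rfl fun b _ => Finset.sum_congr rfl fun b' _ => e2 b b']
  have s1 : ∀ g : Fin n → Fin n → Fin m → Fin m → ℤ,
      ∑ a, ∑ a', ∑ b, ∑ b', g a a' b b' = ∑ b, ∑ b', ∑ a, ∑ a', g a a' b b' := by
    intro g
    calc ∑ a, ∑ a', ∑ b, ∑ b', g a a' b b' = ∑ a, ∑ b, ∑ a', ∑ b', g a a' b b' :=
          Finset.sum_congr rfl fun a _ => Finset.sum_comm
      _ = ∑ b, ∑ a, ∑ a', ∑ b', g a a' b b' := Finset.sum_comm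
      _ = ∑ b, ∑ a, ∑ b', ∑ a', g a a' b b' :=
          Finset.sum_congr rfl fun b _ => Finset.sum_congr rfl fun a _ => Finset.sum_comm
      _ = ∑ b, ∑ b', ∑ a, ∑ a', g a a' b b' :=
          Finset.sum_congr rfl fun b _ => Finset.sum_comm
  exact s1 _

/-- the excess formula -/
theorem excess (A : Fin n → ℝ × ℝ) (B : Fin m → ℝ × ℝ) (h : GenPos A B) :
    (crossings A B : ℤ) + hh m * hh n = dd m * dd n + monoCrossings A B +
      pairSum (fun a a' => (hh m : ℤ) - side A B a a' * (m - side A B a a')) +
      pairSum (fun b b' => (hh n : ℤ) - side B A b b' * (n - side B A b b')) := by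
  classical
  have h1 : (crossings A B : ℤ) = pairSum (fun a a' : Fin n => pairSum (fun b b' : Fin m =>
      (1 - (if orient (A a) (A a') (B b) * orient (A a) (A a') (B b') < 0 then (1 : ℤ) else 0)
        - (if orient (B b) (B b') (A a) * orient (B b) (B b') (A a') < 0 then (1 : ℤ) else 0)
        + (if Meet (A a) (A a') (B b) (B b') then (1 : ℤ) else 0)))) := by
    rw [crossings_eq]
    refine pairSum_congr fun a a' ha => pairSum_congr fun b b' hb => ?_
    exact four (orient_ne_A h ha.ne b) (orient_ne_A h ha.ne b') (orient_ne_B h hb.ne a)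
      (orient_ne_B h hb.ne a')
  have h2 : pairSum (fun a a' : Fin n => pairSum (fun b b' : Fin m =>
      (1 - (if orient (A a) (A a') (B b) * orient (A a) (A a') (B b') < 0 then (1 : ℤ) else 0)
        - (if orient (B b) (B b') (A a) * orient (B b) (B b') (A a') < 0 then (1 : ℤ) else 0)
        + (if Meet (A a) (A a') (B b) (B b') then (1 : ℤ) else 0)))) =
      pairSum (fun a a' : Fin n => pairSum (fun b b' : Fin m => (1 : ℤ))) -
      pairSum (fun a a' : Fin n => pairSum (fun b b' : Fin m =>
        (if orient (A a) (A a') (B b) * orient (A a) (A a') (B b') < 0 then (1 : ℤ) else 0))) -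
      pairSum (fun a a' : Fin n => pairSum (fun b b' : Fin m =>
        (if orient (B b) (B b') (A a) * orient (B b) (B b') (A a') < 0 then (1 : ℤ) else 0))) +
      pairSum (fun a a' : Fin n => pairSum (fun b b' : Fin m =>
        (if Meet (A a) (A a') (B b) (B b') then (1 : ℤ) else 0))) := by
    rw [← pairSum_sub, ← pairSum_sub, ← pairSum_add]
    refine pairSum_congr fun a a' _ => ?_
    rw [← pairSum_sub, ← pairSum_sub, ← pairSum_add]
  have h3 : pairSum (fun a a' : Fin n => pairSum (fun b b' : Fin m =>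
        (if orient (A a) (A a') (B b) * orient (A a) (A a') (B b') < 0 then (1 : ℤ) else 0))) =
      pairSum (fun a a' => (side A B a a' : ℤ) * (m - side A B a a')) := by
    refine pairSum_congr fun a a' ha => ?_
    exact sep_count (fun b => orient (A a) (A a') (B b)) fun b => orient_ne_A h ha.ne b
  have h4 : pairSum (fun a a' : Fin n => pairSum (fun b b' : Fin m =>
        (if orient (B b) (B b') (A a) * orient (B b) (B b') (A a') < 0 then (1 : ℤ) else 0))) =
      pairSum (fun b b' => (side B A b b' : ℤ) * (n - side B A b b')) := by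
    rw [pairSum_comm (fun a a' b b' =>
      if orient (B b) (B b') (A a) * orient (B b) (B b') (A a') < 0 then (1 : ℤ) else 0)]
    refine pairSum_congr fun b b' hb => ?_
    exact sep_count (fun a => orient (B b) (B b') (A a)) fun a => orient_ne_B h hb.ne a
  have h5 : pairSum (fun a a' : Fin n => pairSum (fun b b' : Fin m => (1 : ℤ))) =
      ((dd m : ℤ) + hh m) * (dd n + hh n) := by
    have : pairSum (fun b b' : Fin m => (1 : ℤ)) = (dd m : ℤ) + hh m := by
      rw [pairSum_const]; ring
    rw [this, pairSum_const]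
  have h6 : pairSum (fun a a' : Fin n => (hh m : ℤ) - side A B a a' * (m - side A B a a')) =
      hh m * (dd n + hh n) - pairSum (fun a a' => (side A B a a' : ℤ) * (m - side A B a a')) := by
    rw [pairSum_sub, pairSum_const]
  have h7 : pairSum (fun b b' : Fin m => (hh n : ℤ) - side B A b b' * (n - side B A b b')) =
      hh n * (dd m + hh m) - pairSum (fun b b' => (side B A b b' : ℤ) * (n - side B A b b')) := by
    rw [pairSum_sub, pairSum_const]
  rw [h1, h2, h3, h4, h5, h6, h7, mono_eq]
  ring

end Vale.Agent.P040
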